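import Vale.Agent.P281.H83.TL.Loc

/-!
# P281, project T-L (helper83), block B5: the logarithmic derivatives of units on tame slices
-/

open Set Filter Metric MeasureTheory Vale.Agent.P281 Vale.Agent.P281.H713 Vale.Agent.P272.K
open Vale.Agent.P281.MF Vale.Agent.P281.ISO
open Vale.Agent.P281.H64.TK Vale.Agent.P281.H603.K Vale.Agent.P281.H864.K
open Vale.Agent.P281.H603.TE (lift_polyM tameInM)
open Vale.Agent.P281.H64.TU (KTame TameIn)
open Vale.Agent.P281.H969.TL (IsUnitAt IsNrm IsPair VolStmt SheetBoundStmt BoundStmt volS)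
open scoped Topology ContDiff Manifold ComplexConjugate ComplexOrder

set_option linter.all false

noncomputable section

namespace Vale.Agent.P281.H83.TL

section slice
variable {n d : ℕ} {X Y : Type} [TopologicalSpace X] [ChartedSpace (Cm n) X]
  [IsManifold 𝓘(ℂ, Cm n) ω X]

/-- composition with a holomorphic slice -/
theorem comp_slice {Qs : Cm d → X} {z : Cm d}
    (hQ : ContMDiffAt 𝓘(ℂ, Cm d) 𝓘(ℂ, Cm n) ω Qs z) {c : Chart n X} (hc : At c (Qs z))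
    {G : Cm n → ℝ} (hG : ContDiffAt ℝ ∞ G (c (Qs z))) :
    ContDiffAt ℝ ∞ (fun z' => G (c (Qs z'))) z := by
  have h1 : AnalyticAt ℂ (fun u => c (Qs u)) z := H969.K.analyticAt_chart hc hQ
  have h2 : ContDiffAt ℝ ∞ (fun u => c (Qs u)) z :=
    ((h1.contDiffAt (n := ω)).restrict_scalars ℝ).of_le le_top
  exact ContDiffAt.comp (g := G) (f := fun u => c (Qs u)) z hG h2

theorem an_slice {Qs : Cm d → X} {z : Cm d}
    (hQ : ContMDiffAt 𝓘(ℂ, Cm d) 𝓘(ℂ, Cm n) ω Qs z) {g : X → ℂ} (hg : HolV (Cm n) g (Qs z)) :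
    AnalyticAt ℂ (fun z' => g (Qs z')) z := by
  have h1 : ContMDiffAt 𝓘(ℂ, Cm d) 𝓘(ℂ, ℂ) ω (fun z' => g (Qs z')) z :=
    ContMDiffAt.comp z (g := g) (f := Qs) hg hQ
  exact h1.contDiffAt.analyticAt

omit [TopologicalSpace X] [ChartedSpace (Cm n) X] [IsManifold 𝓘(ℂ, Cm n) ω X] in
theorem cHess_fsum' {ι : Type} (s : Finset ι) (k : ι → ℝ) {f : ι → Cm d → ℝ} {z : Cm d}
    (hf : ∀ i ∈ s, ContDiffAt ℝ 2 (f i) z) :
    cHess (fun y => ∑ i ∈ s, k i * f i y) z = ∑ i ∈ s, (k i : ℂ) • cHess (f i) z := by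
  classical
  induction s using Finset.induction_on with
  | empty =>
    have h1 : (fun y : Cm d => ∑ i ∈ (∅ : Finset ι), k i * f i y) =
        fun y => (0 : ℝ) * (fun _ => (0 : ℝ)) y := by
      funext y; simp
    rw [h1, cHess_const_mul 0 contDiffAt_const]
    simp
  | insert a s ha ih =>
    simp only [Finset.sum_insert ha]
    rw [cHess_add (contDiffAt_const.mul (hf a (Finset.mem_insert_self a s)))
      (ContDiffAt.sum fun b hb => contDiffAt_const.mul (hf b (Finset.mem_insert_of_mem hb))),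
      ih fun b hb => hf b (Finset.mem_insert_of_mem hb),
      cHess_const_mul _ (hf a (Finset.mem_insert_self a s))]

omit [TopologicalSpace X] [ChartedSpace (Cm n) X] [IsManifold 𝓘(ℂ, Cm n) ω X] in
theorem sum_swap {ι : Type} (s : Finset ι) (k : ι → ℂ) (M : ι → Matrix (Fin d) (Fin d) ℂ)
    (ξ : Cm d) : (∑ j, ∑ l, (∑ D ∈ s, k D • M D) j l * ξ j * conj (ξ l)) =
      ∑ D ∈ s, k D * (∑ j, ∑ l, M D j l * ξ j * conj (ξ l)) := by
  classical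
  induction s using Finset.induction_on with
  | empty => simp
  | insert a s ha ih =>
    rw [Finset.sum_insert ha, Finset.sum_insert ha, ← ih, Finset.mul_sum,
      ← Finset.sum_add_distrib]
    refine Finset.sum_congr rfl fun j _ => ?_
    rw [Finset.mul_sum, ← Finset.sum_add_distrib]
    refine Finset.sum_congr rfl fun l _ => ?_
    simp only [Matrix.add_apply, Matrix.smul_apply, smul_eq_mul]
    ring

variable {w : Chart n X → Cm n → Matrix (Fin n) (Fin n) ℂ}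
  {𝒟 : Finset (Set X)} {a : Set X → ℤ} {C : Set X → ℝ} {N : Set X → X → ℝ}

/-- the denominator is smooth -/
theorem smooth_MX (hD : ∀ D ∈ 𝒟, J.IsPrime (Cm n) D)
    (hN : ∀ D ∈ 𝒟, IsNrm w D (C D) (N D)) {Qs : Cm d → X} {z : Cm d}
    (hQ : ContMDiffAt 𝓘(ℂ, Cm d) 𝓘(ℂ, Cm n) ω Qs z) :
    ContDiffAt ℝ ∞ (fun z' => MX 𝒟 a N (Qs z')) z := by
  set c : Chart n X := chartAt (Cm n) (Qs z) with hcd
  have hc : At c (Qs z) := ⟨chart_mem_atlas _ _, mem_chart_source _ _⟩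
  obtain ⟨e, he⟩ := exists_eqs hD (Qs z)
  obtain ⟨φ, hφ⟩ := exists_phis hN he hc
  refine contDiffAt_prod fun D hDD => ContDiffAt.pow ?_ _
  have h1 : ContDiffAt ℝ ∞ (fun v => ‖e D (c.symm v)‖ ^ 2 * Real.exp (φ D v)) (c (Qs z)) := by
    refine (smooth_sq ?_ hc).mul (hφ D hDD).1.exp
    obtain ⟨V, -, hxV, h1, -⟩ := he D hDD
    exact h1 _ hxV
  refine (comp_slice hQ hc h1).congr_of_eventuallyEq ?_
  have hct : Tendsto c (𝓝 (Qs z)) (𝓝 (c (Qs z))) := c.continuousAt hc.2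
  filter_upwards [hQ.continuousAt.eventually (hct.eventually (hφ D hDD).2.1),
    hQ.continuousAt.eventually (c.open_source.mem_nhds hc.2)] with z' h2 h3
  rw [c.left_inv h3] at h2
  rw [c.left_inv h3]
  exact h2

/-- the curvature of the denominator -/
theorem curv_MX (hD : ∀ D ∈ 𝒟, J.IsPrime (Cm n) D)
    (hN : ∀ D ∈ 𝒟, IsNrm w D (C D) (N D)) {Qs : Cm d → X} {z : Cm d}
    (hQ : ContMDiffAt 𝓘(ℂ, Cm d) 𝓘(ℂ, Cm n) ω Qs z) (hoff : ∀ D ∈ 𝒟, Qs z ∉ D)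
    {c : Chart n X} (hc : At c (Qs z)) (hw : (w c (c (Qs z))).PosSemidef) (ξ : Cm d) :
    -((∑ D ∈ 𝒟, (kk a D : ℝ) * max (C D) 0) *
        (∑ i, ∑ j, w c (c (Qs z)) i j * fderiv ℂ (fun u => c (Qs u)) z ξ i *
          conj (fderiv ℂ (fun u => c (Qs u)) z ξ j)).re) ≤
      (∑ j, ∑ k, cHess (fun z => Real.log (MX 𝒟 a N (Qs z))) z j k * ξ j * conj (ξ k)).re := by
  obtain ⟨e, he⟩ := exists_eqs hD (Qs z)
  obtain ⟨φ, hφ⟩ := exists_phis hN he hc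
  have hψ : AnalyticAt ℂ (fun u => c (Qs u)) z := H969.K.analyticAt_chart hc hQ
  have hψω : ContDiffAt ℂ ω (fun u => c (Qs u)) z := hψ.contDiffAt
  set η : Cm n := fderiv ℂ (fun u => c (Qs u)) z ξ with hη
  have hct : Tendsto c (𝓝 (Qs z)) (𝓝 (c (Qs z))) := c.continuousAt hc.2
  have hgan : ∀ D ∈ 𝒟, ContDiffAt ℂ ω (fun z' => e D (Qs z')) z := by
    intro D hDD
    obtain ⟨V, -, hxV, h1, -⟩ := he D hDD
    exact (an_slice hQ (h1 _ hxV)).contDiffAt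
  have hg0 : ∀ D ∈ 𝒟, e D (Qs z) ≠ 0 := by
    intro D hDD h0
    obtain ⟨V, -, hxV, -, h1, -⟩ := he D hDD
    exact hoff D hDD ((h1 _ hxV).2 h0)
  -- the local expression
  have hlog : (fun z => Real.log (MX 𝒟 a N (Qs z))) =ᶠ[𝓝 z] fun z' => ∑ D ∈ 𝒟, (kk a D : ℝ) *
      (Real.log (‖e D (Qs z')‖ ^ 2) + φ D (c (Qs z'))) := by
    have e1 : ∀ᶠ z' in 𝓝 z, ∀ D ∈ 𝒟,
        N D (Qs z') = ‖e D (Qs z')‖ ^ 2 * Real.exp (φ D (c (Qs z'))) := by
      rw [Filter.eventually_all_finset]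
      intro D hDD
      filter_upwards [hQ.continuousAt.eventually (hct.eventually (hφ D hDD).2.1),
        hQ.continuousAt.eventually (c.open_source.mem_nhds hc.2)] with z' h2 h3
      rw [c.left_inv h3] at h2
      exact h2
    have e2 : ∀ᶠ z' in 𝓝 z, ∀ D ∈ 𝒟, e D (Qs z') ≠ 0 := by
      rw [Filter.eventually_all_finset]
      intro D hDD
      exact (hgan D hDD).continuousAt.eventually_ne (hg0 D hDD)
    filter_upwards [e1, e2] with z' h1 h2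
    have h3 : ∀ D ∈ 𝒟, (0 : ℝ) < ‖e D (Qs z')‖ ^ 2 := fun D hDD =>
      pow_pos (norm_pos_iff.2 (h2 D hDD)) 2
    rw [MX, Real.log_prod (fun D hDD => by
      rw [h1 D hDD]
      exact pow_ne_zero _ (mul_pos (h3 D hDD) (Real.exp_pos _)).ne')]
    refine Finset.sum_congr rfl fun D hDD => ?_
    rw [Real.log_pow, h1 D hDD, Real.log_mul (h3 D hDD).ne' (Real.exp_pos _).ne', Real.log_exp]
  have hl2 : ∀ D ∈ 𝒟, ContDiffAt ℝ 2 (fun z' => Real.log (‖e D (Qs z')‖ ^ 2)) z := by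
    intro D hDD
    have h1 : ContDiffAt ℝ 2 (fun z' => e D (Qs z')) z :=
      ((hgan D hDD).restrict_scalars ℝ).of_le le_top
    exact (h1.norm_sq ℂ).log (pow_ne_zero 2 (norm_ne_zero_iff.2 (hg0 D hDD)))
  have hφ2 : ∀ D ∈ 𝒟, ContDiffAt ℝ 2 (fun z' => φ D (c (Qs z'))) z := fun D hDD =>
    (comp_slice hQ hc (hφ D hDD).1).of_le (by norm_cast)
  have hsum : cHess (fun z => Real.log (MX 𝒟 a N (Qs z))) z =
      ∑ D ∈ 𝒟, ((kk a D : ℝ) : ℂ) • cHess (fun z' => φ D (c (Qs z'))) z := by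
    rw [cHess_congr hlog, cHess_fsum' 𝒟 (fun D => (kk a D : ℝ)) fun D hDD =>
      (hl2 D hDD).add (hφ2 D hDD)]
    refine Finset.sum_congr rfl fun D hDD => ?_
    rw [cHess_add (hl2 D hDD) (hφ2 D hDD), cHess_log_norm_sq (hgan D hDD) (hg0 D hDD), zero_add]
  -- one term
  have hterm : ∀ D ∈ 𝒟, -(max (C D) 0 * (∑ i, ∑ j, w c (c (Qs z)) i j * η i * conj (η j)).re) ≤
      (∑ j, ∑ k, cHess (fun z' => φ D (c (Qs z'))) z j k * ξ j * conj (ξ k)).re := by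
    intro D hDD
    have h1 := Vale.Agent.P299.H956.cHess_compR (f := φ D) (τ := fun u => c (Qs u)) (z := z)
      ((hφ D hDD).1.of_le (by norm_cast)) hψω
    have h2 : ∀ b, (∑ j, Vale.Agent.P299.H956.jmR (fun u => c (Qs u)) z b j * ξ j) = η b := by
      intro b
      rw [hη, Vale.Agent.P299.H956.jmR_mulVec hψ.differentiableAt]
      rfl
    have h3 := quad_pull (cHess (φ D) (c (Qs z))) (Vale.Agent.P299.H956.jmR (fun u => c (Qs u)) z) ξ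
    simp only [h2] at h3
    have h4 := (hφ D hDD).2.2 η
    have h5 := qf_nonneg hw η
    rw [h1, ← h3]
    have h6 := mul_le_mul_of_nonneg_right (le_max_left (C D) 0) h5
    have h7 := (abs_le.1 h4).1
    linarith
  rw [hsum]
  have h8 : (∑ j, ∑ k, (∑ D ∈ 𝒟, ((kk a D : ℝ) : ℂ) • cHess (fun z' => φ D (c (Qs z'))) z) j k *
      ξ j * conj (ξ k)).re = ∑ D ∈ 𝒟, (kk a D : ℝ) *
        (∑ j, ∑ k, cHess (fun z' => φ D (c (Qs z'))) z j k * ξ j * conj (ξ k)).re := by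
    have h9 := sum_swap 𝒟 (fun D => ((kk a D : ℝ) : ℂ))
      (fun D => cHess (fun z' => φ D (c (Qs z'))) z) ξ
    rw [h9, Complex.re_sum]
    exact Finset.sum_congr rfl fun D _ => Complex.re_ofReal_mul _ _
  rw [h8, Finset.sum_mul, ← Finset.sum_neg_distrib]
  refine Finset.sum_le_sum fun D hDD => ?_
  have h9 := mul_le_mul_of_nonneg_left (hterm D hDD) (Nat.cast_nonneg (α := ℝ) (kk a D))
  linarith

end slice

section model
variable {p d : ℕ} {Z Y : Type} [TopologicalSpace Z] [T2Space Z] [ChartedSpace (Cm (p + d)) Z]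
  [IsManifold 𝓘(ℂ, Cm (p + d)) ω Z] [TopologicalSpace Y] [T2Space Y] [ChartedSpace (Cm p) Y]
  [IsManifold 𝓘(ℂ, Cm p) ω Y] {f : Z → Y}
  {w : Chart (p + d) Z → Cm (p + d) → Matrix (Fin (p + d)) (Fin (p + d)) ℂ}
  {E Γ : Type} [TopologicalSpace E] [T2Space E] [SimplyConnectedSpace E] [Group Γ]
  [MulAction Γ E] [ContinuousConstSMul Γ E] {𝓕 : Fam p d E Γ} {Qm : Cm p → E → Z}
  {χ : OpenPartialHomeomorph Y (Cm p)}
  {𝒟 : Finset (Set Z)} {a : Set Z → ℤ} {C : Set Z → ℝ} {N : Set Z → Z → ℝ} {U : Z → ℂ} {y : Y}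

/-- **the pair** -/
theorem isPair (M : Model (n := p + d) f 𝓕 χ Qm)
    {W : Fin 𝓕.N → Cm p × Cm d → Matrix (Fin p ⊕ Fin d) (Fin p ⊕ Fin d) ℂ}
    (hW' : IsPull w 𝓕 Qm W) (hw : IsHermitian w) {t : Cm p} (ht : t ∈ 𝓕.T) (hy : χ.symm t = y)
    (hD : ∀ D ∈ 𝒟, J.IsPrime (Cm (p + d)) D)
    (hN : ∀ D ∈ 𝒟, IsNrm w D (C D) (N D)) (hU : IsUnitAt (Cm (p + d)) f 𝒟 a y U)
    (hd : ∀ x, f x = y → ∃ᶠ x' in 𝓝 x, x' ∈ offF f 𝒟 y) :
    IsPair (𝓕.at t ht) (fibW W t) (∑ D ∈ 𝒟, (kk a D : ℝ) * max (C D) 0)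
      {e | ∃ D ∈ 𝒟, Qm t e ∈ D} (fun e => U (Qm t e)) (fun e => AX f 𝒟 a N U y (Qm t e))
      (fun e => MX 𝒟 a N (Qm t e)) := by
  have hfy : ∀ e, f (Qm t e) = y := fun e => (M.fib t ht e).trans hy
  have hQ : ∀ i, ∀ z ∈ ball (0 : Cm d) 3,
      ContMDiffAt 𝓘(ℂ, Cm d) 𝓘(ℂ, Cm (p + d)) ω (fun z => Qm t (𝓕.σ i t z)) z :=
    fun i z hz => contMDiffAt_slice (M.hol i t ht z hz)
  have hχy : χ y = t := by rw [← hy, χ.right_inv (M.sub ht)]
  have hoffc : ∀ x, (∀ D ∈ 𝒟, x ∉ D) → ∀ᶠ x' in 𝓝 x, ∀ D ∈ 𝒟, x' ∉ D := by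
    intro x hx
    rw [Filter.eventually_all_finset]
    exact fun D hDD => (hD D hDD).1.isOpen_compl.mem_nhds (hx D hDD)
  have hat : ∀ x : Z, At (chartAt (Cm (p + d)) x) x := fun x =>
    ⟨chart_mem_atlas _ _, mem_chart_source _ _⟩
  refine
    { inv := ?_
      nonneg := ?_
      smooth := ?_
      isOpen := ?_
      dense := ?_
      hol := ?_
      eq := ?_
      curv := ?_ }
  · intro γ e
    have h1 : Qm t (γ • e) = Qm t e := ((M.eq t ht e (γ • e)).2 ⟨γ, rfl⟩).symm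
    refine ⟨congrArg U h1, congrArg (AX f 𝒟 a N U y) h1, congrArg (MX 𝒟 a N) h1, ?_⟩
    show (∃ D ∈ 𝒟, Qm t (γ • e) ∈ D) ↔ ∃ D ∈ 𝒟, Qm t e ∈ D
    rw [h1]
  · intro e
    refine ⟨?_, Finset.prod_nonneg fun D hDD => pow_nonneg ((hN D hDD).nonneg _) _⟩
    obtain ⟨G, -, h1, h2⟩ := exists_loc hD hN hU hd (hfy e) (hat (Qm t e))
    show 0 ≤ AX f 𝒟 a N U y (Qm t e)
    rw [(h2.self_of_nhds (hfy e)).1]
    exact h1 _
  · intro i
    refine ⟨fun z hz => ContDiffAt.contDiffWithinAt ?_,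
      fun z hz => (smooth_MX hD hN (hQ i z hz)).contDiffWithinAt⟩
    obtain ⟨G, hG, h1, h2⟩ := exists_loc hD hN hU hd (hfy (𝓕.σ i t z)) (hat (Qm t (𝓕.σ i t z)))
    refine (comp_slice (hQ i z hz) (hat _) hG).congr_of_eventuallyEq ?_
    filter_upwards [(hQ i z hz).continuousAt.eventually h2] with z' hz'
    exact (hz' (hfy _)).1
  · intro i z hz hoff
    have h1 : ∀ D ∈ 𝒟, Qm t (𝓕.σ i t z) ∉ D := fun D hDD h => hoff ⟨D, hDD, h⟩
    filter_upwards [(hQ i z hz).continuousAt.eventually (hoffc _ h1)] with z' hz'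
    rintro ⟨D, hDD, h⟩
    exact hz' D hDD h
  · intro i z hz
    obtain ⟨ζ, h1, h2, h3⟩ := M.coord i t ht z hz
    have h4 : Tendsto ζ (𝓝 (Qm t (𝓕.σ i t z))) (𝓝 z) := by
      have h5 := h1.continuousAt.tendsto
      rwa [h2] at h5
    refine h4.frequently (((hd _ (hfy _)).and_eventually h3).mono ?_)
    rintro x ⟨⟨h5, h6⟩, h7⟩ ⟨D, hDD, h8⟩
    refine h6 D hDD ?_
    rw [h5, hχy] at h7
    rw [← h7]
    exact h8
  · intro i z hz hoff
    have h1 : ∀ D ∈ 𝒟, Qm t (𝓕.σ i t z) ∉ D := fun D hDD h => hoff ⟨D, hDD, h⟩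
    obtain ⟨e, he⟩ := exists_eqs hD (Qm t (𝓕.σ i t z))
    obtain ⟨h, hh, hh0, hev⟩ := hU _ (hfy _) e he
    have he0 : ∀ D ∈ 𝒟, e D (Qm t (𝓕.σ i t z)) ≠ 0 := by
      intro D hDD h0
      obtain ⟨V, -, hxV, -, h2, -⟩ := he D hDD
      exact h1 D hDD ((h2 _ hxV).2 h0)
    have hea : ∀ D ∈ 𝒟, AnalyticAt ℂ (fun z' => e D (Qm t (𝓕.σ i t z'))) z := by
      intro D hDD
      obtain ⟨V, -, hxV, h2, -⟩ := he D hDD
      exact an_slice (hQ i z hz) (h2 _ hxV)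
    have h2 : (fun z' => U (Qm t (𝓕.σ i t z'))) =ᶠ[𝓝 z] fun z' =>
        h (Qm t (𝓕.σ i t z')) * ∏ D ∈ 𝒟, e D (Qm t (𝓕.σ i t z')) ^ a D := by
      filter_upwards [(hQ i z hz).continuousAt.eventually hev,
        (hQ i z hz).continuousAt.eventually (hoffc _ h1)] with z' h3 h4
      exact h3 (hfy _) h4
    have h3 : AnalyticAt ℂ (fun z' =>
        h (Qm t (𝓕.σ i t z')) * ∏ D ∈ 𝒟, e D (Qm t (𝓕.σ i t z')) ^ a D) z := by
      refine (an_slice (hQ i z hz) hh).mul (Finset.analyticAt_fun_prod _ fun D hDD => ?_)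
      exact (hea D hDD).zpow (he0 D hDD)
    refine ⟨h3.congr h2.symm, ?_⟩
    show U (Qm t (𝓕.σ i t z)) ≠ 0
    have h4 := h2.self_of_nhds
    simp only at h4
    rw [h4]
    exact mul_ne_zero hh0 (Finset.prod_ne_zero_iff.2 fun D hDD => zpow_ne_zero _ (he0 D hDD))
  · intro e he
    have h1 : ∀ D ∈ 𝒟, Qm t e ∉ D := fun D hDD h => he ⟨D, hDD, h⟩
    refine ⟨Finset.prod_pos fun D hDD => pow_pos (lt_of_le_of_ne ((hN D hDD).nonneg _)
      fun h0 => h1 D hDD (((hN D hDD).zero _).1 h0.symm)) _, ?_⟩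
    obtain ⟨G, -, -, h2⟩ := exists_loc hD hN hU hd (hfy e) (hat (Qm t e))
    obtain ⟨h3, h4⟩ := h2.self_of_nhds (hfy e)
    show AX f 𝒟 a N U y (Qm t e) = ‖U (Qm t e)‖ ^ 2 * MX 𝒟 a N (Qm t e)
    rw [h3, ← h4 ⟨hfy e, h1⟩]
    rfl
  · intro i z hz hoff ξ
    have h1 : ∀ D ∈ 𝒟, Qm t (𝓕.σ i t z) ∉ D := fun D hDD h => hoff ⟨D, hDD, h⟩
    have hc := hat (Qm t (𝓕.σ i t z))
    have h2 := curv_MX (a := a) hD hN (hQ i z hz) h1 hc (hw.posDef _ _ hc).posSemidef ξ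
    refine le_trans (le_of_eq ?_) h2
    congr 3
    have h3 := H969.K.fibW_eq M hW' ht hz hc
    have h4 := quad_pull (w (chartAt (Cm (p + d)) (Qm t (𝓕.σ i t z)))
      (chartAt (Cm (p + d)) (Qm t (𝓕.σ i t z)) (Qm t (𝓕.σ i t z))))
      (H969.K.jacF 𝓕 Qm (chartAt (Cm (p + d)) (Qm t (𝓕.σ i t z))) i t z) ξ
    have h5 : ∀ b, (∑ j, H969.K.jacF 𝓕 Qm (chartAt (Cm (p + d)) (Qm t (𝓕.σ i t z))) i t z b j *
        ξ j) = fderiv ℂ (fun u => chartAt (Cm (p + d)) (Qm t (𝓕.σ i t z))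
          (Qm t (𝓕.σ i t u))) z ξ b := by
      intro b
      have h6 : ξ = ∑ j, (ξ j) • (Pi.single j (1 : ℂ) : Cm d) := by
        funext l
        simp [Finset.sum_apply, Pi.single_apply]
      conv_rhs => rw [h6]
      rw [map_sum, Finset.sum_apply]
      refine Finset.sum_congr rfl fun j _ => ?_
      rw [map_smul, Pi.smul_apply, smul_eq_mul, mul_comm]
      rfl
    simp only [h5] at h4
    rw [h4, ← h3]

end model

/-- **B5** -/
theorem bound_of (I : Inputs) (hV : VolStmt) (hB : SheetBoundStmt) : BoundStmt := by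
  intro p d X Y _ _ _ _ _ _ _ _ _ _ f S w 𝒟 a hd hf hS hP hconn hw hD hn r K hr hK
  have h0 : ∀ D, ∃ (C : ℝ) (N : X → ℝ), D ∈ 𝒟 → IsNrm w D C N := by
    intro D
    by_cases h : D ∈ 𝒟
    · obtain ⟨C, N, hN⟩ := nrm (p + d) X w D hw.toIsHermitian (hD D h)
      exact ⟨C, N, fun _ => hN⟩
    · exact ⟨0, fun _ => 0, fun h' => absurd h' h⟩
  choose C N hN using h0
  obtain ⟨v, hv⟩ := hV p d X Y f S w hd hf hS hP hconn hw
  have hC : 0 ≤ ∑ D ∈ 𝒟, (kk a D : ℝ) * max (C D) 0 :=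
    Finset.sum_nonneg fun D _ => mul_nonneg (Nat.cast_nonneg _) (le_max_right _ _)
  obtain ⟨B, hBd⟩ := hB d r K _ v hd hr hK hC
  refine ⟨B, fun y U hy hU q v₀ hq hT hqy hoff => ?_⟩
  have hdn : ∀ x, f x = y → ∃ᶠ x' in 𝓝 x, x' ∈ offF f 𝒟 y :=
    H364.TD.fibre_off (𝒜 := (𝒟 : Set (Set X))) 𝒟.finite_toSet (fun D hDD => (hD D hDD).1)
      fun D hDD => H364.TD.fibre_dense hf hP (hD D hDD).2.1 hy (hn D hDD y hy)
  obtain ⟨E, Γ, _, _, _, _, _, _, 𝓕, Qm, M, ht, -⟩ := I.ab p d X Y f S hd hf hP y hy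
  obtain ⟨W, hW, hKF⟩ := I.w p d X Y f w E Γ 𝓕 Qm _ hf M hw
  have hyy : (chartAt (Cm p) y).symm (chartAt (Cm p) y y) = y :=
    (chartAt (Cm p) y).left_inv (mem_chart_source _ y)
  obtain ⟨q', hqq, hpoly⟩ := lift_polyM M (mem_chart_source _ y) ht hq hqy hr
  have h1 := hBd E Γ (𝓕.at _ ht) (fibW W _) {e | ∃ D ∈ 𝒟, Qm (chartAt (Cm p) y y) e ∈ D}
    (fun e => U (Qm (chartAt (Cm p) y y) e)) _ _ (kah_fib hKF ht)
    (isPair M hW hw.toIsHermitian ht hyy hD (fun D hDD => hN D hDD) hU hdn)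
    (le_of_eq (hv E Γ 𝓕 Qm _ W M hW _ ht (by rw [hyy]; exact hy))) q' v₀ hpoly
    (tameInM M hW ht hqq hT) (fun v hv ⟨D, hDD, h⟩ => hoff v hv D hDD (by rwa [← hqq v hv]))
  have h2 : (fun v => U (Qm (chartAt (Cm p) y y) (q' v))) =ᶠ[𝓝 v₀] fun v => U (q v) := by
    filter_upwards [isOpen_ball.mem_nhds (mem_ball_self hr)] with v hv
    rw [hqq v hv]
  rw [h2.fderiv_eq, hqq v₀ (mem_ball_self hr)] at h1
  exact h1

end Vale.Agent.P281.H83.TL
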