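import Vale.Agent.P281.H83.TL.Nrm
import Vale.Agent.P281.H603.TE.AlbC
import Vale.Agent.P281.H364.TD.Fib

/-!
# P281, project T-L (helper83), block B5: local computations
-/

open Set Filter Metric MeasureTheory Vale.Agent.P281 Vale.Agent.P272.K
open Vale.Agent.P281.MF Vale.Agent.P281.ISO
open Vale.Agent.P281.H969.TL (IsUnitAt IsNrm)
open scoped Topology ContDiff Manifold ComplexConjugate ComplexOrder

set_option linter.all false

noncomputable section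

namespace Vale.Agent.P281.H83.TL

theorem alg1 {t : ℝ} (ht : 0 < t) (a : ℤ) (s : ℝ) :
    (t ^ a) ^ 2 * (t ^ 2 * Real.exp s) ^ (-a).toNat =
      (t ^ 2) ^ a.toNat * Real.exp ((-a).toNat * s) := by
  rw [mul_pow, ← Real.exp_nat_mul]
  obtain ⟨m, rfl | rfl⟩ := a.eq_nat_or_neg
  · have h1 : (-(m : ℤ)).toNat = 0 := by omega
    have h2 : (m : ℤ).toNat = m := by omega
    rw [h1, h2, zpow_natCast]
    simp only [pow_zero, Nat.cast_zero, zero_mul, Real.exp_zero, mul_one]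
    ring
  · have h1 : (- -(m : ℤ)).toNat = m := by omega
    have h2 : (-(m : ℤ)).toNat = 0 := by omega
    rw [h1, h2, zpow_neg, zpow_natCast, pow_zero, one_mul, ← mul_assoc]
    have h3 : ((t ^ m)⁻¹) ^ 2 * (t ^ 2) ^ m = 1 := by
      rw [← pow_mul, mul_comm 2 m, pow_mul, ← mul_pow, inv_mul_cancel₀ (pow_pos ht m).ne', one_pow]
    rw [h3, one_mul]

section loc
variable {n : ℕ} {X Y : Type} [TopologicalSpace X] [ChartedSpace (Cm n) X]
  [TopologicalSpace Y]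

/-- the part of the fibre off the divisors -/
def offF (f : X → Y) (𝒟 : Finset (Set X)) (y : Y) : Set X := {x | f x = y ∧ ∀ D ∈ 𝒟, x ∉ D}

/-- the exponents -/
def kk (a : Set X → ℤ) (D : Set X) : ℕ := (-(a D)).toNat

/-- the denominator -/
def MX (𝒟 : Finset (Set X)) (a : Set X → ℤ) (N : Set X → X → ℝ) (x : X) : ℝ :=
  ∏ D ∈ 𝒟, N D x ^ kk a D

/-- the numerator off the divisors -/
def FX (𝒟 : Finset (Set X)) (a : Set X → ℤ) (N : Set X → X → ℝ) (U : X → ℂ) (x : X) : ℝ :=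
  ‖U x‖ ^ 2 * MX 𝒟 a N x

/-- the numerator -/
def AX (f : X → Y) (𝒟 : Finset (Set X)) (a : Set X → ℤ) (N : Set X → X → ℝ) (U : X → ℂ) (y : Y)
    (x : X) : ℝ := limUnder (𝓝[offF f 𝒟 y] x) (FX 𝒟 a N U)

variable {w : Chart n X → Cm n → Matrix (Fin n) (Fin n) ℂ} {f : X → Y}
  {𝒟 : Finset (Set X)} {a : Set X → ℤ} {C : Set X → ℝ} {N : Set X → X → ℝ} {U : X → ℂ} {y : Y}

theorem tendsto_symm' {c : Chart n X} {x : X} (hc : At c x) :
    Tendsto c.symm (𝓝 (c x)) (𝓝 x) := by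
  have h2 := (c.continuousAt_symm (c.map_source hc.2)).tendsto
  rwa [c.left_inv hc.2] at h2

theorem exists_eqs (hD : ∀ D ∈ 𝒟, J.IsPrime (Cm n) D) (x : X) : ∃ e : Set X → X → ℂ,
    ∀ D ∈ 𝒟, J.IsLocalEq (Cm n) D (e D) x := by
  have h : ∀ D, ∃ g : X → ℂ, D ∈ 𝒟 → J.IsLocalEq (Cm n) D g x := by
    intro D
    by_cases h : D ∈ 𝒟
    · obtain ⟨g, hg⟩ := (hD D h).2.1 x
      exact ⟨g, fun _ => hg⟩
    · exact ⟨fun _ => 0, fun h' => absurd h' h⟩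
  choose e he using h
  exact ⟨e, he⟩

theorem exists_phis (hN : ∀ D ∈ 𝒟, IsNrm w D (C D) (N D)) {x : X} {e : Set X → X → ℂ}
    (he : ∀ D ∈ 𝒟, J.IsLocalEq (Cm n) D (e D) x) {c : Chart n X} (hc : At c x) :
    ∃ φ : Set X → Cm n → ℝ, ∀ D ∈ 𝒟, ContDiffAt ℝ ∞ (φ D) (c x) ∧
      (∀ᶠ v in 𝓝 (c x), N D (c.symm v) = ‖e D (c.symm v)‖ ^ 2 * Real.exp (φ D v)) ∧
      ∀ ξ : Cm n, |(∑ j, ∑ k, cHess (φ D) (c x) j k * ξ j * conj (ξ k)).re| ≤
        C D * (∑ j, ∑ k, w c (c x) j k * ξ j * conj (ξ k)).re := by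
  have h : ∀ D, ∃ φ : Cm n → ℝ, D ∈ 𝒟 → ContDiffAt ℝ ∞ φ (c x) ∧
      (∀ᶠ v in 𝓝 (c x), N D (c.symm v) = ‖e D (c.symm v)‖ ^ 2 * Real.exp (φ v)) ∧
      ∀ ξ : Cm n, |(∑ j, ∑ k, cHess φ (c x) j k * ξ j * conj (ξ k)).re| ≤
        C D * (∑ j, ∑ k, w c (c x) j k * ξ j * conj (ξ k)).re := by
    intro D
    by_cases h : D ∈ 𝒟
    · obtain ⟨g, hg⟩ := (hN D h).loc x (e D) (he D h) c hc
      exact ⟨g, fun _ => hg⟩
    · exact ⟨fun _ => 0, fun h' => absurd h' h⟩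
  choose e he using h
  exact ⟨e, he⟩

theorem smooth_sq [IsManifold 𝓘(ℂ, Cm n) ω X] {x : X} {g : X → ℂ} (hg : HolV (Cm n) g x)
    {c : Chart n X} (hc : At c x) :
    ContDiffAt ℝ ∞ (fun v => ‖g (c.symm v)‖ ^ 2) (c x) := by
  have h1 : ContDiffAt ℂ ω (fun v => g (c.symm v)) (c x) := H716.IsSys.holV_chart hc hg
  exact ((h1.restrict_scalars ℝ).of_le le_top).norm_sq ℂ

/-- the local expression of the numerator -/
theorem exists_loc [IsManifold 𝓘(ℂ, Cm n) ω X] (hD : ∀ D ∈ 𝒟, J.IsPrime (Cm n) D)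
    (hN : ∀ D ∈ 𝒟, IsNrm w D (C D) (N D)) (hU : IsUnitAt (Cm n) f 𝒟 a y U)
    (hd : ∀ x, f x = y → ∃ᶠ x' in 𝓝 x, x' ∈ offF f 𝒟 y) {x : X} (hx : f x = y) {c : Chart n X}
    (hc : At c x) :
    ∃ G : Cm n → ℝ, ContDiffAt ℝ ∞ G (c x) ∧ (∀ v, 0 ≤ G v) ∧
      ∀ᶠ x' in 𝓝 x, f x' = y → AX f 𝒟 a N U y x' = G (c x') ∧
        (x' ∈ offF f 𝒟 y → FX 𝒟 a N U x' = G (c x')) := by
  obtain ⟨e, he⟩ := exists_eqs hD x
  obtain ⟨φ, hφ⟩ := exists_phis hN he hc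
  obtain ⟨h, hh, hh0, hev⟩ := hU x hx e he
  set G : Cm n → ℝ := fun v => ‖h (c.symm v)‖ ^ 2 *
    ∏ D ∈ 𝒟, ((‖e D (c.symm v)‖ ^ 2) ^ (a D).toNat * Real.exp (kk a D * φ D v)) with hG
  have hGs : ContDiffAt ℝ ∞ G (c x) := by
    refine (smooth_sq hh hc).mul (contDiffAt_prod fun D hDD => ?_)
    refine ((smooth_sq ?_ hc).pow _).mul (contDiffAt_const.mul (hφ D hDD).1).exp
    obtain ⟨V, -, hxV, h1, -⟩ := he D hDD
    exact h1 x hxV
  refine ⟨G, hGs, fun v => by positivity, ?_⟩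
  have hct : Tendsto c (𝓝 x) (𝓝 (c x)) := c.continuousAt hc.2
  have e1 : ∀ᶠ x' in 𝓝 x, ∀ D ∈ 𝒟, N D x' = ‖e D x'‖ ^ 2 * Real.exp (φ D (c x')) := by
    rw [Filter.eventually_all_finset]
    intro D hDD
    filter_upwards [hct.eventually (hφ D hDD).2.1, c.open_source.mem_nhds hc.2] with x' h1 h2
    rw [c.left_inv h2] at h1
    exact h1
  have e2 : ∀ᶠ x' in 𝓝 x, ∀ D ∈ 𝒟, (x' ∈ D ↔ e D x' = 0) := by
    rw [Filter.eventually_all_finset]
    intro D hDD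
    obtain ⟨V, hV, hxV, -, h1, -⟩ := he D hDD
    filter_upwards [hV.mem_nhds hxV] with x' hx' using h1 x' hx'
  have hF : ∀ᶠ x' in 𝓝 x, x' ∈ offF f 𝒟 y → FX 𝒟 a N U x' = G (c x') := by
    filter_upwards [hev, e1, e2, c.open_source.mem_nhds hc.2] with x' h1 h2 h3 h4 hoff
    have h5 := h1 hoff.1 hoff.2
    rw [FX, MX, hG, h5]
    simp only
    rw [c.left_inv h4, norm_mul, mul_pow, norm_prod, ← Finset.prod_pow, mul_assoc,
      ← Finset.prod_mul_distrib]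
    congr 1
    refine Finset.prod_congr rfl fun D hDD => ?_
    have h6 : 0 < ‖e D x'‖ := norm_pos_iff.2 fun h0 => hoff.2 D hDD ((h3 D hDD).2 h0)
    rw [norm_zpow, h2 D hDD, kk]
    exact alg1 h6 (a D) _
  have hcont : ∀ᶠ v in 𝓝 (c x), ContinuousAt G v := by
    have h1 : ContDiffAt ℝ 1 G (c x) := hGs.of_le (by norm_cast)
    exact (h1.eventually (by simp)).mono fun z hz => hz.continuousAt
  filter_upwards [hF, eventually_eventually_nhds.2 hF, hct.eventually hcont,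
    c.open_source.mem_nhds hc.2] with x' h1 h2 h3 h4 hx'
  refine ⟨?_, h1⟩
  have : (𝓝[offF f 𝒟 y] x').NeBot := by
    rw [← mem_closure_iff_nhdsWithin_neBot, mem_closure_iff_frequently]
    exact hd x' hx'
  refine Tendsto.limUnder_eq ?_
  have h5 : Tendsto (fun x'' => G (c x'')) (𝓝[offF f 𝒟 y] x') (𝓝 (G (c x'))) :=
    (ContinuousAt.comp (g := G) h3 (c.continuousAt h4)).tendsto.mono_left nhdsWithin_le_nhds
  refine h5.congr' ?_
  filter_upwards [nhdsWithin_le_nhds h2, self_mem_nhdsWithin] with z hz hzS using (hz hzS).symm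

end loc

end Vale.Agent.P281.H83.TL
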